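import Vale.Agent.P236VL.Line
import Vale.Agent.P251.F.F3Proof
import Vale.Agent.P251.F.T1Coc

/-!
# P236VL / Cells : translation to charts; the lines for `Laz / 3`
-/

noncomputable section

namespace Vale.Agent.P236VL

open Vale.Agent.P251.F Vale.Agent.P251.F.F3 Vale.Agent.P236EL LawRing Polynomial

variable {N : Type} [CommRing N] [LawRing N] {t : Cob N 1} {s a : ℕ} {w : ℤ}
  {L : Type} [CommRing L] {B : Type} [CommRing B]

/-- vanishing of the cohomology of a cell comodule -/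
def HV {ι : Type} [Fintype ι] (θ : ι → ι → Cob N 1) (d : ι → ℤ) (s : ℕ) (w : ℤ) : Prop :=
  ∀ F ∈ CW 3 N d w s, DD θ s F = 0 → F ∈ BC 3 θ d w s

/-- `Y` is the representation on polynomials of degree at most `a` -/
structure Pres (Y : Ga L (Fin (a + 1))) (l : Fin (a + 1) → Lˣ) : Prop where
  d : ∀ c, Y.d c = c
  eq : ∀ (B : Type) [CommRing B] (o : L →+* B) (x y : B) (c : Fin (a + 1)),
    ∑ c', o (l c') * Y.ent o x c c' * y ^ (c' : ℕ) = o (l c) * (x + y) ^ (c : ℕ)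

variable (hR : Rp 3 N L)

/-- constants -/
def oc (s : ℕ) : L →+* Cob N s := MvPolynomial.C.comp hR.o

theorem ev_oc (c : Chain N s B) (o : L →+* B) (r : L) : Cob.ev c (oc hR s r) = o r :=
  DFunLike.congr_fun (hR.uniq _ ((Cob.ev c).comp (oc hR s)) o) r

theorem isWt_oc (r : L) {W : ℤ} {z : Cob N s} (h : Cob.IsWt W z) : Cob.IsWt W (oc hR s r * z) := by
  intro B _ c u
  rw [map_mul, map_mul, h, ev_oc hR _ (c.pt.comp hR.o), ev_oc hR _ (c.pt.comp hR.o)]
  ring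

/-- the polynomial of a chart -/
def toP (l : Fin (a + 1) → Lˣ) (F : Fin (a + 1) → Cob N s) : (Cob N s)[X] :=
  ∑ c : Fin (a + 1), monomial c (oc hR s (l c) * F c)

variable {Y : Ga L (Fin (a + 1))} {l : Fin (a + 1) → Lˣ}

theorem coeff_toP (F : Fin (a + 1) → Cob N s) (c : Fin (a + 1)) :
    (toP hR l F).coeff c = oc hR s (l c) * F c := by
  simp only [toP, finsetSum_coeff, coeff_monomial, Fin.val_inj, Finset.sum_ite_eq',
    Finset.mem_univ, if_true]

theorem natDegree_toP (F : Fin (a + 1) → Cob N s) : (toP hR l F).natDegree ≤ a :=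
  natDegree_sum_le_of_forall_le _ _ fun c _ => (natDegree_monomial_le _).trans (by omega)

theorem toP_inj {F G : Fin (a + 1) → Cob N s} (h : toP hR l F = toP hR l G) : F = G := by
  funext c
  have h1 := congrArg (coeff · c) h
  simp only [coeff_toP] at h1
  exact ((l c).isUnit.map (oc hR s)).mul_left_cancel h1

theorem toP_zero : toP hR l (0 : Fin (a + 1) → Cob N s) = 0 := by simp [toP]

theorem exists_toP {P : (Cob N s)[X]} (h : P.natDegree ≤ a) : ∃ F, toP hR l F = P := by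
  refine ⟨fun c => oc hR s ((l c)⁻¹ : Lˣ) * P.coeff c, ext fun c => ?_⟩
  by_cases hc : c < a + 1
  · rw [coeff_toP hR _ ⟨c, hc⟩, ← mul_assoc, ← map_mul, Units.mul_inv, map_one, one_mul]
  · rw [coeff_eq_zero_of_natDegree_lt ((natDegree_toP hR _).trans_lt (by omega)),
      coeff_eq_zero_of_natDegree_lt (by omega)]

theorem wp_toP (hY : Pres Y l) {F : Fin (a + 1) → Cob N s} :
    WP (2 * w) (toP hR l F) ↔ F ∈ CW 3 N Y.d w s := by
  have e : ∀ c : Fin (a + 1), (((3 : ℕ) : ℤ) - 1) * (w - Y.d c) = 2 * w - 2 * (c : ℕ) := fun c => by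
    rw [hY.d]
    push_cast
    ring
  constructor
  · intro h c
    have h1 := isWt_oc hR ((l c)⁻¹ : Lˣ) (h c)
    rwa [coeff_toP, ← mul_assoc, ← map_mul, Units.inv_mul, map_one, one_mul, ← e] at h1
  · intro h c
    by_cases hc : c < a + 1
    · rw [coeff_toP hR _ ⟨c, hc⟩]
      exact isWt_oc hR _ (e ⟨c, hc⟩ ▸ h ⟨c, hc⟩)
    · rw [coeff_eq_zero_of_natDegree_lt ((natDegree_toP hR _).trans_lt (by omega))]
      exact Cob.isWt_zero _

theorem EV_toP (x : N →+* B) (V : ℕ → strict B) (e : B) (F : Fin (a + 1) → Cob N s) :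
    EV t s x V e (toP hR l F) = ∑ c, x (hR.o (l c)) * Cob.ev (ofSeq s x V) (F c) *
      (po t x (V s) + e) ^ (c : ℕ) := by
  simp only [toP, map_sum, ← C_mul_X_pow_eq_monomial, map_mul, map_pow, EV_C, EV_X,
    ev_oc hR _ (x.comp hR.o), RingHom.comp_apply]

theorem DP_toP (ht : Cob.d 1 t = 0) (hY : Pres Y l) (F : Fin (a + 1) → Cob N s) :
    DP t s (toP hR l F) = toP hR l (DD (Y.tht hR.o t) s F) := by
  refine ext_EV t fun B _ x V e => ?_
  rw [EV_DP ht, EV_toP, altD]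
  simp only [ev_DD (Y.mc_tht hR ht), Finset.mul_sum, Finset.sum_mul, mul_smul_comm, smul_mul_assoc]
  rw [Finset.sum_comm]
  refine Finset.sum_congr rfl fun j _ => ?_
  rw [← Finset.smul_sum, EV_toP]
  congr 1
  simp only [XX, TH, Ga.A1_tht, add_sub_cancel, Finset.mul_sum, Finset.sum_mul]
  rw [Finset.sum_comm]
  refine Finset.sum_congr rfl fun c _ => ?_
  have h := hY.eq B (x.comp hR.o) (A1 x (del j V s) (V (s + 1)) t) (po t x (V (s + 1)) + e) c
  rw [← add_assoc, eq_sub_iff_add_eq.1 (A1_eq ht x _ _)] at h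
  rw [mul_right_comm, ← RingHom.comp_apply, ← h, Finset.sum_mul]
  exact Finset.sum_congr rfl fun c' _ => by rw [RingHom.comp_apply]; ring

theorem hv_iff (ht : Cob.d 1 t = 0) (hY : Pres Y l) :
    HV (Y.tht hR.o t) Y.d s w ↔ HP t a s (2 * w) := by
  constructor
  · intro h P h1 h2 h3
    obtain ⟨F, rfl⟩ := exists_toP hR (l := l) h1
    rw [DP_toP hR ht hY, ← toP_zero hR (l := l)] at h3
    have h4 := h F ((wp_toP hR hY).1 h2) (toP_inj hR h3)
    cases s with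
    | zero => rw [AddSubgroup.mem_bot.1 h4]; exact toP_zero hR
    | succ s =>
      obtain ⟨G, hG, rfl⟩ := h4
      exact ⟨_, natDegree_toP hR G, (wp_toP hR hY).2 hG, (DP_toP hR ht hY G).symm⟩
  · intro h F h1 h2
    have h3 := h _ (natDegree_toP hR (l := l) F) ((wp_toP hR hY).2 h1)
      (by rw [DP_toP hR ht hY, h2, toP_zero])
    cases s with
    | zero => exact toP_inj hR (h3.trans (toP_zero hR).symm)
    | succ s =>
      obtain ⟨Q, h4, h5, h6⟩ := h3
      obtain ⟨G, rfl⟩ := exists_toP hR (l := l) h4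
      rw [DP_toP hR ht hY] at h6
      exact ⟨G, (wp_toP hR hY).1 h5, (toP_inj hR h6).symm⟩

theorem pres_sph : Pres (Ga.sph L) fun _ => 1 :=
  ⟨fun c => by fin_cases c; rfl, fun B _ o x y c => by simp [Ga.ent, Ga.sph]⟩

theorem pres_two (α : Lˣ) : Pres (Ga.two (α : L)) ![1, α] :=
  ⟨fun _ => rfl, fun B _ o x y c => by
    fin_cases c <;> simp [Ga.ent, Ga.two, Fin.sum_univ_two]
    ring⟩

theorem pres_three (α γ : Lˣ) (β : L) (h : 2 * (γ : L) = α * β) :
    Pres (Ga.three (α : L) β γ h) ![1, α, γ] :=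
  ⟨fun _ => rfl, fun B _ o x y c => by
    have h1 := congrArg o h
    rw [map_mul, map_mul, map_ofNat] at h1
    fin_cases c <;> simp [Ga.ent, Ga.three, Fin.sum_univ_three]
    · ring
    · linear_combination -x * y * h1⟩

/-! ### the ring `Laz / 3` -/

/-- `Laz / 3` represents laws in characteristic three -/
def r3 : Rp 3 (QZ 3) (ZMod 3) := rpQZ (ploc_zmod_one Nat.prime_three)

theorem noNeg3 : NoNeg (QZ 3) := noNeg_LP 3

theorem three_QZ : (3 : QZ 3) = 0 := by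
  have h : ((3 : ℕ) : QZ 3) = 0 := by
    rw [← map_natCast (Ideal.Quotient.mk _), Ideal.Quotient.eq_zero_iff_mem]
    exact Ideal.mem_span_singleton_self _
  exact_mod_cast h

theorem t1_rq {t : Cob Laz 1} (ht : P251.I.IsT1 3 t) : T1 (rq 3 1 t) := by
  obtain ⟨h1, h2, -⟩ := BCocycle 3 (by norm_num) t ht
  refine ⟨by rw [← Cob.mapRing_d (isLawHom_mkZ 3), h2, map_zero],
    Cob.IsWt.mapRing (isLawHom_mkZ 3) (by simpa using h1), fun B _ x a b v r hv hr => ?_⟩
  have h3 : act (a : InvSeries B) (x.comp (Ideal.Quotient.mk _)) = Laz.lift (hz 3 v) := by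
    apply LawRing.epi_laz
    rw [law_act, ← Law.map_map, (isLawHom_mkZ 3).law, hv, Laz.law_eq, Laz.univ_map_lift]
  have h4 : (3 : B) = 0 := by rw [← map_ofNat x, three_QZ, map_zero]
  rw [A1, Cob.ev_mapRing, ofSeq_pre (isLawHom_mkZ 3), ← A1,
    ← A1_translate _ (a' := 1) (b' := ⟨(hs 3 (hz 3 v) r)⁻¹, inv_mem (hs_mem 3 _ _)⟩)
      (a : InvSeries B) (mul_inv_cancel _).symm
      (by dsimp only; rw [← hr, mul_inv_rev, inv_inv]), h3, A1_t1_lift ht]
  push_cast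
  rw [h4]
  ring

variable {t₀ : Cob Laz 1} (ht : P251.I.IsT1 3 t₀)
include ht

/-- **`H^{s,w}(Y/3) = 0` for `w < 3 s`** -/
theorem hv_three (α γ : (ZMod 3)ˣ) (β : ZMod 3) (h : 2 * (γ : ZMod 3) = α * β) (hw : w < 3 * s) :
    HV ((Ga.three (α : ZMod 3) β γ h).tht r3.o (rq 3 1 t₀)) (Ga.three (α : ZMod 3) β γ h).d s w :=
  (hv_iff r3 (t1_rq ht).d (pres_three α γ β h)).2
    (line_Y r3 noNeg3 (t1_rq ht) three_QZ (by omega))

/-- **`H^{s,w}(S/3) = 0` for `2 w + s % 2 < 3 s`** -/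
theorem hv_sph (hw : 2 * w + s % 2 < 3 * s) :
    HV ((Ga.sph (ZMod 3)).tht r3.o (rq 3 1 t₀)) (Ga.sph (ZMod 3)).d s w :=
  (hv_iff r3 (t1_rq ht).d pres_sph).2 (line_S r3 noNeg3 (t1_rq ht) three_QZ hw)

/-- the line for the two-cell complex -/
theorem hv_two (α : (ZMod 3)ˣ) (hw : 2 * w + s % 2 < 3 * s + 4) :
    HV ((Ga.two (α : ZMod 3)).tht r3.o (rq 3 1 t₀)) (Ga.two (α : ZMod 3)).d (s + 1) w :=
  (hv_iff r3 (t1_rq ht).d (pres_two α)).2 (line_A r3 noNeg3 (t1_rq ht) three_QZ hw)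

/-- periodicity of vanishing for the sphere modulo three -/
theorem hv_sph_iter (hw : w ≤ 3 * s)
    (h : HV ((Ga.sph (ZMod 3)).tht r3.o (rq 3 1 t₀)) (Ga.sph (ZMod 3)).d s w) (k : ℕ) :
    HV ((Ga.sph (ZMod 3)).tht r3.o (rq 3 1 t₀)) (Ga.sph (ZMod 3)).d (s + 2 * k) (w + 3 * k) := by
  rw [hv_iff r3 (t1_rq ht).d pres_sph] at h ⊢
  rw [show 2 * (w + 3 * k) = 2 * w + 6 * k by ring]
  exact hp_iter r3 noNeg3 (t1_rq ht) three_QZ (by omega) h k

end Vale.Agent.P236VL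

end
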