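import Vale.Agent.P236VL.T1

/-!
# P236VL / Line : vanishing lines for the skeleta of `T(1)` modulo three
-/

noncomputable section

namespace Vale.Agent.P236VL

open Vale.Agent.P251.F Vale.Agent.P251.F.F3 Vale.Agent.P236EL LawRing Polynomial

variable {N : Type} [CommRing N] [LawRing N] {t : Cob N 1} {s n a k : ℕ} {W : ℤ}

variable (t) in
/-- coboundaries of polynomial cochains of degree at most `a` -/
def Bd (a : ℕ) (W : ℤ) : ∀ s, (Cob N s)[X] → Prop
  | 0, P => P = 0
  | s + 1, P => ∃ Q : (Cob N s)[X], Q.natDegree ≤ a ∧ WP W Q ∧ P = DP t s Q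

variable (t) in
/-- vanishing of the cohomology of the complex with cells `0, …, a` -/
def HP (a s : ℕ) (W : ℤ) : Prop :=
  ∀ P : (Cob N s)[X], P.natDegree ≤ a → WP W P → DP t s P = 0 → Bd t a W s P

theorem hp_zero (hN : NoNeg N) (h : W < 0) : HP t a 0 W := fun P _ hP _ => by
  change P = 0
  ext1 c
  exact eq_zero_of_neg hN (by omega) (hP c)

theorem exists_split {R : Type} [CommRing R] {Q : R[X]} (h : Q.natDegree ≤ n + 1 + a) :
    ∃ S : R[X], S.natDegree ≤ a ∧ (Q - S * X ^ (n + 1)).natDegree ≤ n ∧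
      ∀ c, S.coeff c = Q.coeff (c + (n + 1)) := by
  have h1 : ∀ c, (∑ c ∈ Finset.range (a + 1), monomial c (Q.coeff (c + (n + 1)))).coeff c =
      Q.coeff (c + (n + 1)) := fun c => by
    simp only [finsetSum_coeff, coeff_monomial, Finset.sum_ite_eq', Finset.mem_range]
    split_ifs with hc
    · rfl
    · exact (coeff_eq_zero_of_natDegree_lt (by omega)).symm
  refine ⟨_, natDegree_le_iff_coeff_eq_zero.2 fun c hc => ?_,
    natDegree_le_iff_coeff_eq_zero.2 fun c hc => ?_, h1⟩
  · rw [h1, coeff_eq_zero_of_natDegree_lt (by omega)]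
  · rw [coeff_sub, coeff_mul_X_pow', if_pos (by omega), h1, Nat.sub_add_cancel (by omega), sub_self]

/-- removing the top cells -/
theorem peel (ht : T1 t)
    (h : ∀ (s : ℕ) (z : Cob N s), ((X + C z) ^ (n + 1) - X ^ (n + 1)).natDegree ≤ k)
    (hk : a + k ≤ n) (H : HP t a s (W - 2 * (n + 1 : ℕ))) {Q : (Cob N s)[X]}
    (hQ : Q.natDegree ≤ n + 1 + a) (hW : WP W Q) (hd : (DP t s Q).natDegree ≤ n) :
    ∃ Q' : (Cob N s)[X], Q'.natDegree ≤ n ∧ WP W Q' ∧ DP t s Q' = DP t s Q := by
  obtain ⟨S, h1, h2, h3⟩ := exists_split hQ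
  have h4 : WP (W - 2 * (n + 1 : ℕ)) S := fun c => by
    have h5 := hW (c + (n + 1))
    rw [h3]
    convert h5 using 1
    push_cast
    ring
  have h5 : (DP t s S * X ^ (n + 1)).natDegree ≤ n := by
    have e : DP t s S * X ^ (n + 1) = DP t s Q - DP t s (Q - S * X ^ (n + 1)) -
        (DP t s (S * X ^ (n + 1)) - DP t s S * X ^ (n + 1)) := by
      rw [map_sub]
      abel
    rw [e]
    refine (natDegree_sub_le _ _).trans (max_le ((natDegree_sub_le _ _).trans
      (max_le hd ((natDegree_DP _).trans h2))) ((natDegree_DP_mul (h _) S).trans (by omega)))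
  have h6 : DP t s S = 0 := by
    ext1 c
    rw [← coeff_mul_X_pow _ (n + 1), coeff_eq_zero_of_natDegree_lt (by omega), coeff_zero]
  have h7 := H S h1 h4 h6
  cases s with
  | zero =>
    obtain rfl : S = 0 := h7
    exact ⟨Q, by simpa using h2, hW, rfl⟩
  | succ s =>
    obtain ⟨S', h8, h9, rfl⟩ := h7
    refine ⟨Q - DP t s (S' * X ^ (n + 1)), ?_,
      hW.sub ((h9.mul_X (sub_add_cancel _ _)).DP ht.d ht.wt), by
        rw [map_sub, DP_DP ht.d, sub_zero]⟩
    rw [← sub_sub_sub_cancel_right _ _ (DP t s S' * X ^ (n + 1))]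
    exact (natDegree_sub_le _ _).trans
      (max_le h2 ((natDegree_DP_mul (h _) S').trans (by omega)))

theorem natDegree_cube {R : Type} [CommRing R] (h : (3 : R) = 0) (z : R) (m : ℕ) :
    ((X + C z) ^ (3 * m + 2 + 1) - X ^ (3 * m + 2 + 1)).natDegree ≤ 3 * m := by
  have h3 : (3 : R[X]) = 0 := by rw [← map_ofNat C, h, map_zero]
  have h1 : (X + C z) ^ 3 = X ^ 3 + C (z ^ 3) := by
    rw [map_pow]
    linear_combination (X ^ 2 * C z + X * C z ^ 2) * h3
  induction m with
  | zero => rw [h1, add_sub_cancel_left, natDegree_C]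
  | succ m ih =>
    have e : (X + C z) ^ (3 * (m + 1) + 2 + 1) - X ^ (3 * (m + 1) + 2 + 1) =
        (X + C z) ^ 3 * ((X + C z) ^ (3 * m + 2 + 1) - X ^ (3 * m + 2 + 1)) +
          C (z ^ 3) * X ^ (3 * m + 3) := by
      linear_combination (X ^ (3 * m + 3)) * h1
    rw [e]
    refine (natDegree_add_le _ _).trans (max_le (natDegree_mul_le.trans ?_)
      (natDegree_C_mul_X_pow_le _ _))
    have h2 : ((X + C z) ^ 3).natDegree ≤ 3 := by
      rw [h1, natDegree_add_C]
      exact natDegree_X_pow_le 3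
    omega

omit [LawRing N] in
theorem three_cob (h3 : (3 : N) = 0) (s : ℕ) : (3 : Cob N s) = 0 := by
  rw [← map_ofNat MvPolynomial.C, h3, map_zero]

section

variable {L : Type} [CommRing L] (hR : Rp 3 N L) (hN : NoNeg N) (ht : T1 t) (h3 : (3 : N) = 0)

include hR hN ht h3 in
/-- **the vanishing line for the three-cell complex** -/
theorem line_Y (h : W < 6 * s) : HP t 2 s W := by
  induction s generalizing W with
  | zero => exact hp_zero hN (by simpa using h)
  | succ s ih =>
    intro P hP hW hd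
    obtain ⟨Q, hQ, rfl⟩ := van_T hR hN ht hW hd (by push_cast at h; omega)
    have key : ∀ m, ∀ Q' : (Cob N s)[X], Q'.natDegree ≤ 3 * m + 2 → WP W Q' →
        DP t s Q' = DP t s Q → Bd t 2 W (s + 1) (DP t s Q) := by
      intro m
      induction m with
      | zero => exact fun Q' h1 h2 h4 => ⟨Q', h1, h2, h4.symm⟩
      | succ m ihm =>
        intro Q' h1 h2 h4
        obtain ⟨Q'', h5, h6, h7⟩ := peel ht (n := 3 * m + 2) (a := 2)
          (fun s z => natDegree_cube (three_cob h3 s) z m) (by omega)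
          (ih (by push_cast at h ⊢; omega)) (by omega) h2 (by rw [h4]; omega)
        exact ihm Q'' h5 h6 (h7.trans h4)
    exact key Q.natDegree Q (by omega) hQ rfl

include ht in
theorem hp_one (h2 : HP t 2 (s + 1) W) (h0 : HP t 0 s (W - 4)) : HP t 1 (s + 1) W := by
  intro P hP hW hd
  obtain ⟨Q, h4, hQ, rfl⟩ := h2 P (by omega) hW hd
  obtain ⟨Q', h5, h6, h7⟩ := peel ht (n := 1) (a := 0) (k := 1) (fun s z => by
    have e : (X + C z) ^ (1 + 1) - X ^ (1 + 1) = C (2 * z) * X + C (z ^ 2) := by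
      simp only [map_mul, map_pow, map_ofNat]
      ring
    rw [e]
    exact natDegree_linear_le) le_rfl h0 h4 hQ hP
  exact ⟨Q', h5, h6, h7.symm⟩

include ht h3 in
theorem hp_zero' (h2 : HP t 2 (s + 1) W) (h1 : HP t 1 s (W - 2)) : HP t 0 (s + 1) W := by
  intro P hP hW hd
  obtain ⟨Q, h4, hQ, rfl⟩ := h2 P (by omega) hW hd
  have h5 := h1 (derivative Q) ((natDegree_derivative_le _).trans (by omega)) hQ.der
    (by rw [← derivative_DP, derivative_of_natDegree_zero (by omega)])
  have key : ∀ E : (Cob N s)[X], DP t s E = 0 → WP W E → E.natDegree ≤ 2 →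
      derivative E = derivative Q → Bd t 0 W (s + 1) (DP t s Q) := fun E h6 h7 h8 h9 => by
    refine ⟨Q - E, natDegree_le_iff_coeff_eq_zero.2 fun c hc => ?_, hQ.sub h7, by
      rw [map_sub, h6, sub_zero]⟩
    obtain ⟨c, rfl⟩ : ∃ d, c = d + 1 := ⟨c - 1, by omega⟩
    have h10 := coeff_derivative (Q - E) c
    rw [map_sub, h9, sub_self, coeff_zero] at h10
    rcases c with _ | _ | c
    · simpa using h10.symm
    · push_cast at h10
      linear_combination h10 + (Q - E).coeff (0 + 1 + 1) * three_cob h3 s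
    · exact coeff_eq_zero_of_natDegree_lt
        ((natDegree_sub_le _ _).trans_lt (max_lt (by omega) (by omega)))
  cases s with
  | zero => exact key 0 (map_zero _) (WP.zero W) (by simp) (by rw [h5, map_zero])
  | succ s =>
    obtain ⟨R, h6, h7, h8⟩ := h5
    refine key (DP t s (C (R.coeff 0) * X ^ 1 - C (R.coeff 1) * X ^ 2)) (DP_DP ht.d _)
      ((((WP.const (h7 0)).mul_X (by push_cast; ring)).sub
        ((WP.const (h7 1)).mul_X (by push_cast; ring))).DP ht.d ht.wt)
      ((natDegree_DP _).trans ((natDegree_sub_le _ _).trans (max_le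
        ((natDegree_C_mul_X_pow_le _ _).trans (by omega)) (natDegree_C_mul_X_pow_le _ _)))) ?_
    have h9 : (3 : (Cob N s)[X]) = 0 := by rw [← map_ofNat C, three_cob h3, map_zero]
    rw [derivative_DP, h8]
    congr 1
    conv_rhs => rw [eq_X_add_C_of_natDegree_le_one h6]
    simp only [derivative_sub, derivative_C_mul_X_pow, map_mul, map_natCast]
    push_cast
    linear_combination -(C (R.coeff 1) * X) * h9

include ht h3 in
/-- periodicity -/
theorem hp_per (h2 : HP t 2 (s + 2) W) (h1 : HP t 2 (s + 1) (W - 2)) (h0 : HP t 0 s (W - 6)) :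
    HP t 0 (s + 2) W :=
  hp_zero' ht h3 h2 (hp_one ht h1 (by rwa [show W - 2 - 4 = W - 6 by ring]))

include hR hN ht h3 in
theorem hp_per' (h : W < 6 * s + 8) (h0 : HP t 0 s (W - 6)) : HP t 0 (s + 2) W :=
  hp_per ht h3 (line_Y hR hN ht h3 (by push_cast; omega))
    (line_Y hR hN ht h3 (by push_cast; omega)) h0

include hR hN ht h3 in
/-- iterated periodicity -/
theorem hp_iter (h : W < 6 * s + 2) (h0 : HP t 0 s W) (k : ℕ) : HP t 0 (s + 2 * k) (W + 6 * k) := by
  induction k with
  | zero => simpa using h0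
  | succ k ih =>
    exact hp_per' hR hN ht h3 (s := s + 2 * k) (by push_cast; omega)
      (by rwa [show W + 6 * (k + 1 : ℕ) - 6 = W + 6 * k by push_cast; ring])

include hR hN ht h3 in
/-- **the vanishing line for the sphere modulo three** -/
theorem line_S (h : W + s % 2 < 3 * s) : HP t 0 s W := by
  induction s using Nat.twoStepInduction generalizing W with
  | zero => exact hp_zero hN (by simpa using h)
  | one =>
    exact hp_zero' ht h3 (line_Y hR hN ht h3 (by push_cast at h ⊢; omega))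
      (hp_zero hN (by push_cast at h; omega))
  | more s ih _ =>
    exact hp_per' hR hN ht h3 (by push_cast at h; omega) (ih (by push_cast at h; omega))

include hR hN ht h3 in
/-- **the vanishing line for the two-cell complex** -/
theorem line_A (h : W + s % 2 < 3 * s + 4) : HP t 1 (s + 1) W :=
  hp_one ht (line_Y hR hN ht h3 (by push_cast; omega)) (line_S hR hN ht h3 (by omega))

end

end Vale.Agent.P236VL

end
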