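import Vale.Agent.P236EL.Tool

/-!
# P236VL / Pol : polynomial cochains (the cobar complex of `T(1)`)
-/

noncomputable section

namespace Vale.Agent.P236VL

open Vale.Agent.P251.F Vale.Agent.P251.F.F3 Vale.Agent.P236EL LawRing Polynomial

variable {N : Type} [CommRing N] [LawRing N] {B B' : Type} [CommRing B] [CommRing B']
  (t : Cob N 1) {s n m : ℕ}

/-- the potential of a cocycle -/
def po (x : N →+* B) (a : strict B) : B := A1 x a 1 t

theorem map_po (φ : B →+* B') (x : N →+* B) (a : strict B) :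
    φ (po t x a) = po t (φ.comp x) (smap φ a) := by
  rw [po, map_A1, smap_one, po]

/-- evaluation of polynomial cochains -/
def EV (s : ℕ) (x : N →+* B) (V : ℕ → strict B) (e : B) : (Cob N s)[X] →+* B :=
  eval₂RingHom (Cob.ev (ofSeq s x V)) (po t x (V s) + e)

theorem EV_C (x : N →+* B) (V : ℕ → strict B) (e : B) (z : Cob N s) :
    EV t s x V e (C z) = Cob.ev (ofSeq s x V) z := eval₂_C _ _

theorem EV_X (x : N →+* B) (V : ℕ → strict B) (e : B) :
    EV t s x V e X = po t x (V s) + e := eval₂_X _ _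

theorem map_EV (φ : B →+* B') (x : N →+* B) (V : ℕ → strict B) (e : B) (P : (Cob N s)[X]) :
    φ (EV t s x V e P) = EV t s (φ.comp x) (fun k => smap φ (V k)) (φ e) P := by
  refine DFunLike.congr_fun (show φ.comp (EV t s x V e) = _ from ringHom_ext (fun z => ?_) ?_) P
  · rw [RingHom.comp_apply, EV_C, EV_C, ← Cob.ev_map, ofSeq_map]
  · rw [RingHom.comp_apply, EV_X, EV_X, map_add, map_po]

theorem EV_congr (x : N →+* B) {V V' : ℕ → strict B} (h : ∀ k ≤ s, V k = V' k) (e : B) :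
    EV t s x V e = EV t s x V' e := by
  rw [EV, EV, ofSeq_congr h, h s le_rfl]

/-- the universal point -/
def xU (N : Type) [CommRing N] (s : ℕ) : N →+* (Cob N s)[X] := C.comp (Cob.univ N s).pt

/-- the universal vertices -/
def VU (N : Type) [CommRing N] (s : ℕ) : ℕ → strict (Cob N s)[X] :=
  fun k => smap C (seq (Cob.univ N s) k)

/-- the universal coordinate -/
def eU (s : ℕ) : (Cob N s)[X] := X - po t (xU N s) (VU N s s)

theorem ev_univ (z : Cob N s) : Cob.ev (ofSeq s (xU N s) (VU N s)) z = C z := by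
  unfold xU VU
  rw [← ofSeq_map, ofSeq_seq, Cob.ev_map, Cob.ev_univ]

theorem EV_univ (P : (Cob N s)[X]) : EV t s (xU N s) (VU N s) (eU t s) P = P := by
  refine DFunLike.congr_fun (show _ = RingHom.id _ from ringHom_ext (fun z => ?_) ?_) P
  · rw [EV_C, ev_univ, RingHom.id_apply]
  · rw [EV_X, eU, add_sub_cancel, RingHom.id_apply]

theorem ext_EV {P Q : (Cob N s)[X]} (h : ∀ (B : Type) [CommRing B] (x : N →+* B)
    (V : ℕ → strict B) (e : B), EV t s x V e P = EV t s x V e Q) : P = Q := by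
  rw [← EV_univ t P, h, EV_univ]

theorem EV_comp_C (x : N →+* B) (V : ℕ → strict B) (e : B) :
    (EV t s x V e).comp C = Cob.ev (ofSeq s x V) := RingHom.ext (EV_C t x V e)

theorem EV_xU (x : N →+* B) (V : ℕ → strict B) (e : B) :
    (EV t s x V e).comp (xU N s) = act (V 0 : InvSeries B) x := by
  rw [xU, ← RingHom.comp_assoc, EV_comp_C, ← Chain.map_pt, Cob.univ_map_ev, ofSeq_pt]

theorem EV_VU {k : ℕ} (hk : k ≤ s) (x : N →+* B) (V : ℕ → strict B) (e : B) :
    (smap (EV t s x V e) (VU N s k) : InvSeries B) = V k * (V 0 : InvSeries B)⁻¹ := by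
  rw [← smap_seq_univ hk x V, VU, val_smap, val_smap, val_smap, InvSeries.map_map, EV_comp_C]

variable {t}

theorem A1_add (ht : Cob.d 1 t = 0) (x : N →+* B) (a b g : strict B) :
    A1 x a g t = A1 x a b t + A1 x b g t := by
  have h := congrArg (Cob.ev (ofSeq 2 x fun k => if k = 0 then a else if k = 1 then b else g)) ht
  simp only [P236EL.ev_d_ofSeq, ev_ofSeq_one, Finset.sum_range_succ, Finset.sum_range_zero, del,
    map_zero] at h
  simp at h
  linear_combination -h

theorem A1_eq (ht : Cob.d 1 t = 0) (x : N →+* B) (a b : strict B) :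
    A1 x a b t = po t x a - po t x b := by
  rw [po, po, A1_add ht x a b 1, add_sub_cancel_right]

theorem po_translate (ht : Cob.d 1 t = 0) (x : N →+* B) {a a' : strict B} (g : strict B)
    (h : (a' : InvSeries B) = a * (g : InvSeries B)⁻¹) :
    po t (act (g : InvSeries B) x) a' = po t x a - po t x g := by
  rw [po, A1_translate x (g : InvSeries B) (b := g) h (mul_inv_cancel _).symm, A1_eq ht]

theorem po_scale (hw : Cob.IsWt 2 t) (x : N →+* B) (a : strict B) (u : Bˣ) :
    po t (act (InvSeries.lin u)⁻¹ x) (cj u a) = (u : B) ^ 2 * po t x a := by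
  have h : cj u (1 : strict B) = 1 := by
    apply Subtype.ext
    change (InvSeries.lin u)⁻¹ * 1 * InvSeries.lin u = 1
    rw [mul_one, inv_mul_cancel]
  rw [po, ← h, A1_scale x a 1 u hw, po, zpow_ofNat, Units.val_pow_eq_pow_val]

theorem EV_translate (ht : Cob.d 1 t = 0) (x : N →+* B) {V V' : ℕ → strict B} (g : strict B)
    (h : ∀ k ≤ s, (V' k : InvSeries B) = V k * (g : InvSeries B)⁻¹) (e : B) :
    EV t s (act (g : InvSeries B) x) V' (e + po t x g) = EV t s x V e := by
  rw [EV, EV, ofSeq_translate x V V' _ h, po_translate ht x g (h s le_rfl)]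
  congr 1
  ring

theorem EV_eU (ht : Cob.d 1 t = 0) (x : N →+* B) (V : ℕ → strict B) (e : B) :
    EV t s x V e (eU t s) = e + po t x (V 0) := by
  rw [eU, map_sub, EV_X, map_po, EV_xU, po_translate ht x (V 0) (EV_VU t le_rfl x V e)]
  ring

theorem EV_EV (ht : Cob.d 1 t = 0) (x : N →+* B) (V : ℕ → strict B) (e : B)
    {G₀ : ℕ → strict (Cob N n)[X]} {G : ℕ → strict B} (h : ∀ k ≤ m,
      (smap (EV t n x V e) (G₀ k) : InvSeries B) = G k * (V 0 : InvSeries B)⁻¹)
    (P : (Cob N m)[X]) :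
    EV t n x V e (EV t m (xU N n) G₀ (eU t n) P) = EV t m x G e P := by
  rw [map_EV, EV_xU, EV_eU ht, EV_translate ht x (V 0) h]

variable (t) in
/-- pull back along a map of vertices -/
def pl (m n : ℕ) (α : ℕ → ℕ) : (Cob N m)[X] →+* (Cob N n)[X] :=
  EV t m (xU N n) (VU N n ∘ α) (eU t n)

theorem EV_pl (ht : Cob.d 1 t = 0) {α : ℕ → ℕ} (hα : ∀ k ≤ m, α k ≤ n) (x : N →+* B)
    (V : ℕ → strict B) (e : B) (P : (Cob N m)[X]) :
    EV t n x V e (pl t m n α P) = EV t m x (V ∘ α) e P :=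
  EV_EV ht x V e (fun k hk => EV_VU t (hα k hk) x V e) P

theorem pl_eq (α : ℕ → ℕ) : ∃ (g : Cob N m →+* Cob N n) (z : Cob N n),
    ∀ P, pl t m n α P = (P.map g).comp (X + C z) := by
  refine ⟨Cob.ev (ofSeq m (Cob.univ N n).pt (seq (Cob.univ N n) ∘ α)),
    po t (Cob.univ N n).pt (seq (Cob.univ N n) (α m)) -
      po t (Cob.univ N n).pt (seq (Cob.univ N n) n), fun P =>
    DFunLike.congr_fun (show _ = (compRingHom _).comp (mapRingHom _) from
      ringHom_ext (fun z => ?_) ?_) P⟩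
  · rw [pl, EV_C, RingHom.comp_apply, coe_mapRingHom, map_C, coe_compRingHom_apply, C_comp,
      ← Cob.ev_map, ofSeq_map]
    rfl
  · rw [pl, EV_X, RingHom.comp_apply, coe_mapRingHom, map_X, coe_compRingHom_apply, X_comp,
      map_sub, map_po, map_po, eU]
    change po t (xU N n) (VU N n (α m)) + _ = X + (po t (xU N n) (VU N n (α m)) - _)
    rw [add_sub_left_comm]
    rfl

variable (t) in
/-- the differential -/
def DP (s : ℕ) : (Cob N s)[X] →+ (Cob N (s + 1))[X] :=
  ∑ j ∈ Finset.range (s + 2), ((-1 : ℤ) ^ j) • (pl t s (s + 1) (sa j)).toAddMonoidHom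

theorem DP_apply (P : (Cob N s)[X]) :
    DP t s P = ∑ j ∈ Finset.range (s + 2), ((-1 : ℤ) ^ j) • pl t s (s + 1) (sa j) P := by
  simp [DP, AddMonoidHom.finsetSum_apply]

theorem EV_DP (ht : Cob.d 1 t = 0) (x : N →+* B) (V : ℕ → strict B) (e : B) (P : (Cob N s)[X]) :
    EV t (s + 1) x V e (DP t s P) = altD (s + 2) (fun G => EV t s x G e P) V := by
  rw [DP_apply, map_sum, altD]
  refine Finset.sum_congr rfl fun j _ => ?_
  rw [map_zsmul, EV_pl ht (fun k hk => by unfold sa; split_ifs <;> omega), del_eq]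

theorem DP_C (ht : Cob.d 1 t = 0) (z : Cob N s) : DP t s (C z) = C (Cob.d s z) :=
  ext_EV t fun B _ x V e => by
    rw [EV_DP ht, EV_C, P236EL.ev_d_ofSeq, altD]
    simp only [EV_C]

theorem altD_altD {W M : Type*} [AddCommGroup M] (f : (ℕ → W) → M) (n : ℕ) (G : ℕ → W) :
    altD (n + 1) (altD n f) G = 0 := by
  have h1 : ∀ i j, i ≤ j → del i (del (j + 1) G) = del j (del i G) := fun i j h => by
    funext k
    simp only [del]
    split_ifs <;> first | rfl | omega
  simp only [altD, Finset.smul_sum, smul_smul, ← pow_add]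
  rw [← Finset.sum_product' (f := fun i j => ((-1 : ℤ) ^ (i + j)) • f (del j (del i G)))]
  refine Finset.sum_involution
    (fun ij _ => if ij.2 < ij.1 then (ij.2, ij.1 - 1) else (ij.2 + 1, ij.1)) ?_ ?_ ?_ ?_
  · rintro ⟨i, j⟩ -
    dsimp only
    split_ifs with h
    · obtain ⟨i, rfl⟩ : ∃ k, i = k + 1 := ⟨i - 1, by omega⟩
      rw [h1 j i (by omega), Nat.add_sub_cancel, add_right_comm, pow_succ, add_comm j i]
      simp
    · rw [h1 i j (by omega), add_right_comm j, pow_succ, add_comm j i]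
      simp
  · rintro ⟨i, j⟩ - -
    dsimp only
    split_ifs with h <;> simp only [ne_eq, Prod.mk.injEq] <;> omega
  · rintro ⟨i, j⟩ h
    simp only [Finset.mem_product, Finset.mem_range] at h ⊢
    split_ifs <;> dsimp only <;> omega
  · rintro ⟨i, j⟩ -
    dsimp only
    by_cases h : j < i
    · simp only [if_pos h, if_neg (show ¬ i - 1 < j by omega), Prod.mk.injEq, and_true]
      omega
    · simp only [if_neg h, if_pos (show i < j + 1 by omega), Nat.add_sub_cancel]

theorem DP_DP (ht : Cob.d 1 t = 0) (P : (Cob N s)[X]) : DP t (s + 1) (DP t s P) = 0 :=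
  ext_EV t fun B _ x V e => by
    rw [EV_DP ht, map_zero, ← altD_altD (fun G => EV t s x G e P) (s + 2) V]
    simp only [EV_DP ht]

theorem natDegree_pl (α : ℕ → ℕ) (P : (Cob N m)[X]) :
    (pl t m n α P).natDegree ≤ P.natDegree := by
  obtain ⟨g, z, h⟩ := pl_eq (t := t) (m := m) (n := n) α
  rw [h]
  refine natDegree_comp_le.trans ?_
  have h1 : (X + C z).natDegree ≤ 1 := natDegree_add_C.trans_le natDegree_X_le
  simpa using Nat.mul_le_mul (natDegree_map_le (f := g) (p := P)) h1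

theorem natDegree_alt {R : Type} [CommRing R] {f : ℕ → R[X]} {k l : ℕ}
    (h : ∀ j, (f j).natDegree ≤ k) :
    (∑ j ∈ Finset.range l, ((-1 : ℤ) ^ j) • f j).natDegree ≤ k :=
  natDegree_sum_le_of_forall_le _ _ fun j _ => (natDegree_smul_le _ _).trans (h j)

theorem natDegree_DP (P : (Cob N s)[X]) : (DP t s P).natDegree ≤ P.natDegree := by
  rw [DP_apply]
  exact natDegree_alt fun j => natDegree_pl _ P

theorem natDegree_DP_mul {k : ℕ}
    (h : ∀ z : Cob N (s + 1), ((X + C z) ^ n - X ^ n).natDegree ≤ k) (P : (Cob N s)[X]) :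
    (DP t s (P * X ^ n) - DP t s P * X ^ n).natDegree ≤ P.natDegree + k := by
  have h0 : DP t s (P * X ^ n) - DP t s P * X ^ n = ∑ j ∈ Finset.range (s + 2), ((-1 : ℤ) ^ j) •
      (pl t s (s + 1) (sa j) (P * X ^ n) - pl t s (s + 1) (sa j) P * X ^ n) := by
    simp only [DP_apply, zsmul_eq_mul, Finset.sum_mul, mul_sub, Finset.sum_sub_distrib, mul_assoc]
  rw [h0]
  refine natDegree_alt fun j => ?_
  obtain ⟨g, z, h1⟩ := pl_eq (t := t) (m := s) (n := s + 1) (sa j)
  rw [map_mul, map_pow, h1 X, map_X, X_comp, ← mul_sub]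
  exact natDegree_mul_le.trans (Nat.add_le_add (natDegree_pl _ P) (h z))

theorem derivative_DP (P : (Cob N s)[X]) : derivative (DP t s P) = DP t s (derivative P) := by
  rw [DP_apply, DP_apply, map_sum]
  refine Finset.sum_congr rfl fun j _ => ?_
  obtain ⟨g, z, h1⟩ := pl_eq (t := t) (m := s) (n := s + 1) (sa j)
  rw [map_zsmul, h1, h1, derivative_comp, derivative_map]
  simp

/-! ### weights -/

/-- homogeneous polynomial cochains -/
def WP (W : ℤ) (P : (Cob N s)[X]) : Prop := ∀ c : ℕ, Cob.IsWt (W - 2 * c) (P.coeff c)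

theorem WP.zero (W : ℤ) : WP W (0 : (Cob N s)[X]) := fun _ => Cob.isWt_zero _

theorem WP.add {W : ℤ} {P Q : (Cob N s)[X]} (h : WP W P) (h' : WP W Q) : WP W (P + Q) :=
  fun c => by rw [coeff_add]; exact (h c).add (h' c)

theorem WP.neg {W : ℤ} {P : (Cob N s)[X]} (h : WP W P) : WP W (-P) :=
  fun c => by rw [coeff_neg]; exact (h c).neg

theorem WP.sub {W : ℤ} {P Q : (Cob N s)[X]} (h : WP W P) (h' : WP W Q) : WP W (P - Q) := by
  rw [sub_eq_add_neg]
  exact h.add h'.neg

theorem WP.zsmul {W : ℤ} {P : (Cob N s)[X]} (h : WP W P) (a : ℤ) : WP W (a • P) :=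
  fun c => by rw [coeff_smul]; exact (h c).zsmul a

theorem WP.mul_X {W W' : ℤ} {P : (Cob N s)[X]} (h : WP W P) (e : W + 2 * n = W') :
    WP W' (P * X ^ n) := fun c => by
  rw [coeff_mul_X_pow']
  split_ifs with hc
  · have h1 := h (c - n)
    rwa [Nat.cast_sub hc, show W - 2 * ((c : ℤ) - n) = W' - 2 * c by omega] at h1
  · exact Cob.isWt_zero _

theorem WP.const {W : ℤ} {z : Cob N s} (h : Cob.IsWt W z) : WP W (C z) := fun c => by
  rw [coeff_C]
  split_ifs with hc
  · subst hc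
    simpa using h
  · exact Cob.isWt_zero _

theorem WP.der {W : ℤ} {P : (Cob N s)[X]} (h : WP W P) : WP (W - 2) (derivative P) := fun c => by
  have h1 := (h (c + 1)).zsmul ((c : ℤ) + 1)
  rw [coeff_derivative, mul_comm (P.coeff _)]
  rw [zsmul_eq_mul] at h1
  push_cast at h1
  rwa [show W - 2 * ((c : ℤ) + 1) = W - 2 - 2 * c by ring] at h1

theorem zpow_aux (u : Bˣ) (W : ℤ) (c : ℕ) :
    ((u ^ (W - 2 * c) : Bˣ) : B) * ((u : B) ^ 2) ^ c = ((u ^ W : Bˣ) : B) := by
  rw [← pow_mul, ← Units.val_pow_eq_pow_val, ← Units.val_mul, ← zpow_natCast, ← zpow_add]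
  congr 2
  push_cast
  ring

theorem WP.scale (hw : Cob.IsWt 2 t) {W : ℤ} {P : (Cob N s)[X]} (h : WP W P) (x : N →+* B)
    (V : ℕ → strict B) (e : B) (u : Bˣ) :
    EV t s (act (InvSeries.lin u)⁻¹ x) (conjSeq u V) ((u : B) ^ 2 * e) P =
      ((u ^ W : Bˣ) : B) * EV t s x V e P := by
  rw [EV, EV, coe_eval₂RingHom, coe_eval₂RingHom, eval₂_eq_sum_range, eval₂_eq_sum_range,
    Finset.mul_sum, show conjSeq u V s = cj u (V s) from rfl, po_scale hw, ← mul_add,
    ← ofSeq_scale]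
  refine Finset.sum_congr rfl fun c _ => ?_
  rw [h c, mul_pow, ← zpow_aux u W c]
  ring

theorem WP.of_scale (hw : Cob.IsWt 2 t) {W : ℤ} {P : (Cob N s)[X]}
    (h : ∀ (B : Type) [CommRing B] (x : N →+* B) (V : ℕ → strict B) (e : B) (u : Bˣ),
      EV t s (act (InvSeries.lin u)⁻¹ x) (conjSeq u V) ((u : B) ^ 2 * e) P =
      ((u ^ W : Bˣ) : B) * EV t s x V e P) : WP W P := by
  intro c B _ ch u
  set x : N →+* B[X] := C.comp ch.pt with hx
  set V : ℕ → strict B[X] := fun k => smap C (seq ch k) with hV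
  set u' : B[X]ˣ := Units.map (C : B →+* B[X]) u with hu
  have h1 := h _ x V (X - po t x (V s)) u'
  have h2 : ofSeq s x V = ch.map C := by rw [hx, hV, ← ofSeq_map, ofSeq_seq]
  have h3 : (ch.map (C : B →+* B[X])).scale u' = (ch.scale u).map C := by
    ext1
    · change act _ (C.comp ch.pt) = C.comp (act _ ch.pt)
      rw [comp_act, map_inv, InvSeries.map_lin]
    · funext i
      change _ = InvSeries.map _ (_ * _ * _)
      rw [map_mul, map_mul, map_inv, InvSeries.map_lin]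
      rfl
  have h4 : ∀ (c : Chain N s B) (y : B[X]),
      eval₂ (Cob.ev (c.map C)) y P = (P.map (Cob.ev c)).comp y := fun c y => by
    rw [comp, eval₂_map]
    congr 1
    exact RingHom.ext fun z => Cob.ev_map _ _ _
  rw [EV, EV, coe_eval₂RingHom, coe_eval₂RingHom, show conjSeq u' V s = cj u' (V s) from rfl,
    po_scale hw, ← mul_add, add_sub_cancel, ← ofSeq_scale, h2, h3, h4, h4, comp_X, hu,
    ← map_zpow] at h1
  have h5 := congrArg (coeff · c) h1
  simp only [Units.coe_map, MonoidHom.coe_coe, ← map_pow, comp_C_mul_X_coeff, coeff_C_mul,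
    coeff_map] at h5
  have h6 : IsUnit (((u : B) ^ 2) ^ c) := (u.isUnit.pow 2).pow c
  rw [← h6.mul_left_inj, h5, ← zpow_aux u W c]
  ring

theorem conjSeq_comp (u : Bˣ) (V : ℕ → strict B) (α : ℕ → ℕ) :
    conjSeq u V ∘ α = conjSeq u (V ∘ α) := rfl

theorem WP.pl (ht : Cob.d 1 t = 0) (hw : Cob.IsWt 2 t) {α : ℕ → ℕ} (hα : ∀ k ≤ m, α k ≤ n)
    {W : ℤ} {P : (Cob N m)[X]} (h : WP W P) : WP W (pl t m n α P) :=
  WP.of_scale hw fun B _ x V e u => by
    rw [EV_pl ht hα, EV_pl ht hα, conjSeq_comp, h.scale hw]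

theorem WP.sum {W : ℤ} {f : ℕ → (Cob N s)[X]} {S : Finset ℕ} (h : ∀ j ∈ S, WP W (f j)) :
    WP W (∑ j ∈ S, f j) :=
  Finset.sum_induction f (WP W) (fun _ _ => WP.add) (WP.zero W) h

theorem WP.DP (ht : Cob.d 1 t = 0) (hw : Cob.IsWt 2 t) {W : ℤ} {P : (Cob N s)[X]} (h : WP W P) :
    WP W (DP t s P) := by
  rw [DP_apply]
  exact WP.sum fun j _ => (h.pl ht hw fun k hk => by unfold sa; split_ifs <;> omega).zsmul _

end Vale.Agent.P236VL

end
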