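import Vale.Agent.P236VL.Pol
import Vale.Agent.P251.F.F3Main

/-!
# P236VL / T1 : the vanishing line for `T(1)`
-/

noncomputable section

namespace Vale.Agent.P236VL

open Vale.Agent.P251.F Vale.Agent.P251.F.F3 Vale.Agent.P236EL LawRing Polynomial

instance fact3 : Fact (Nat.Prime 3) := ⟨Nat.prime_three⟩

variable {N : Type} [CommRing N] [LawRing N] {B B' : Type} [CommRing B] [CommRing B']
  {t : Cob N 1} {s n m : ℕ}

/-- the properties of `t_1` -/
structure T1 (t : Cob N 1) : Prop where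
  d : Cob.d 1 t = 0
  wt : Cob.IsWt 2 t
  val : ∀ (B : Type) [CommRing B] (x : N →+* B) (a b : strict B) (v r : ℕ → B),
    (a : InvSeries B) • law.map x = hz 3 v →
    (a : InvSeries B) * (b : InvSeries B)⁻¹ = hs 3 (hz 3 v) r → A1 x a b t = r 0

/-! ### normalization -/

variable (t) in
/-- normalized polynomial cochains -/
def NP (k : ℕ) (P : (Cob N s)[X]) : Prop := ∀ (B : Type) [CommRing B] (x : N →+* B)
  (G : ℕ → strict B) (e : B), ∀ j < k, EV t s x (dup j G) e P = 0

theorem norm_step (ht : T1 t) {k : ℕ} (hk : k ≤ n) {W : ℤ} {P : (Cob N (n + 1))[X]} (hw : WP W P)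
    (hd : DP t (n + 1) P = 0) (hP : NP t k P) :
    ∃ Q : (Cob N n)[X], WP W Q ∧ NP t (k + 1) (P - DP t n Q) := by
  have hα : ∀ i ≤ n + 1, dup k id i ≤ n := fun i hi => by
    simp only [dup, id]
    split_ifs <;> omega
  refine ⟨((-1 : ℤ) ^ k) • pl t (n + 1) n (dup k id) P, (hw.pl ht.d ht.wt hα).zsmul _, ?_⟩
  intro B _ x G e j hj
  have hX : ∀ j < k, ∀ G, EV t (n + 1) x (dup j G) e P = 0 := fun j hj G => hP B x G e j hj
  have hdX : ∀ G, altD (n + 3) (fun G => EV t (n + 1) x G e P) G = 0 := by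
    intro G
    rw [← EV_DP ht.d, hd, map_zero]
  have hy : (fun G => EV t n x G e (pl t (n + 1) n (dup k id) P)) =
      fun G => EV t (n + 1) x (dup k G) e P := funext fun G => by
    rw [EV_pl ht.d hα]
    congr 2
    funext i
    simp only [dup, Function.comp, id]
    split_ifs <;> rfl
  rw [map_sub, map_zsmul, map_zsmul, EV_DP ht.d, hy]
  rcases Nat.lt_succ_iff_lt_or_eq.1 hj with h | rfl
  · rw [hX j h, altD_dup_eq_zero _ h (by omega), smul_zero, sub_zero]
    intro i hi G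
    change EV t (n + 1) x (dup k (dup i G)) e P = 0
    rw [dup_dup hi, hX i hi]
  · rw [altD_norm (fun G => EV t (n + 1) x G e P) hk hX hdX, smul_smul, ← pow_add, ← two_mul,
      pow_mul]
    simp

theorem exists_NP (ht : T1 t) {W : ℤ} {P : (Cob N (n + 1))[X]} (hw : WP W P)
    (hd : DP t (n + 1) P = 0) : ∃ Q : (Cob N n)[X], WP W Q ∧ NP t (n + 1) (P - DP t n Q) := by
  have key : ∀ k ≤ n + 1, ∃ Q : (Cob N n)[X], WP W Q ∧ NP t k (P - DP t n Q) := by
    intro k
    induction k with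
    | zero => exact fun _ => ⟨0, WP.zero W, fun B _ x G e j hj => absurd hj (Nat.not_lt_zero j)⟩
    | succ k ih =>
      intro hk
      obtain ⟨y, hyw, hy⟩ := ih (by omega)
      obtain ⟨y', hyw', hy'⟩ := norm_step ht (by omega) (hw.sub (hyw.DP ht.d ht.wt))
        (by rw [map_sub, hd, DP_DP ht.d, sub_zero]) hy
      exact ⟨y + y', hyw.add hyw', by rwa [map_add, ← sub_sub]⟩
  exact key (n + 1) le_rfl

theorem EV_zero (x : N →+* B) (V : ℕ → strict B) {e : B} (h : po t x (V s) + e = 0)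
    (P : (Cob N s)[X]) : EV t s x V e P = evSeq x (P.coeff 0) V := by
  rw [EV, h, coe_eval₂RingHom, eval₂_at_zero, evSeq]

theorem NP.coeff {k : ℕ} {P : (Cob N s)[X]} (h : NP t k P) : Nm k (P.coeff 0) :=
  fun B _ x G j hj => by rw [← EV_zero (t := t) x _ (add_neg_cancel _), h B x G _ j hj]

/-! ### the retraction -/

/-- a sequence concentrated at `0` -/
def sg (y : B) : ℕ → B := fun k => if k = 0 then y else 0

variable {L : Type} [CommRing L] (hR : Rp 3 N L)

/-- typicalization of a vertex -/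
def ty (x : N →+* B) (a : strict B) : strict B := uS hR x (fun _ => a) 0

variable (t) in
/-- the retraction -/
def rt (x : N →+* B) (e : B) (a : strict B) : strict B :=
  ⟨(hs 3 ((ty hR x a : InvSeries B) • law.map x) (sg (po t x (ty hR x a) + e)))⁻¹ * ty hR x a,
    mul_mem (inv_mem (hs_mem _ _ _)) (ty hR x a).2⟩

theorem val_rt (x : N →+* B) (e : B) (a : strict B) : (rt t hR x e a : InvSeries B) =
    (hs 3 ((ty hR x a : InvSeries B) • law.map x) (sg (po t x (ty hR x a) + e)))⁻¹ * ty hR x a :=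
  rfl

theorem ty_hz (x : N →+* B) (a : strict B) :
    ∃ v, (ty hR x a : InvSeries B) • law.map x = hz 3 v :=
  ⟨_, by rw [ty, val_uS, mul_smul, tau_smul]⟩

theorem rt_hz (x : N →+* B) (e : B) (a : strict B) :
    ∃ v, (rt t hR x e a : InvSeries B) • law.map x = hz 3 v := by
  obtain ⟨v, hv⟩ := ty_hz hR x a
  exact ⟨_, by rw [val_rt, mul_smul, hv, hz_tg]⟩

theorem po_rt (ht : T1 t) (x : N →+* B) (e : B) (a : strict B) :
    po t x (rt t hR x e a) + e = 0 := by
  obtain ⟨v, hv⟩ := ty_hz hR x a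
  have h := ht.val B x (ty hR x a) (rt t hR x e a) v (sg (po t x (ty hR x a) + e)) hv
    (by rw [val_rt, hv, mul_inv_rev, inv_inv, mul_inv_cancel_left])
  rw [A1_eq ht.d, sg, if_pos rfl] at h
  linear_combination -h

theorem smap_rt (φ : B →+* B') (x : N →+* B) (e : B) (a : strict B) :
    smap φ (rt t hR x e a) = rt t hR (φ.comp x) (φ e) (smap φ a) := by
  have h : smap φ (ty hR x a) = ty hR (φ.comp x) (smap φ a) :=
    congrFun (smap_uS hR φ x fun _ => a) 0
  apply Subtype.ext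
  rw [val_smap, val_rt, val_rt, map_mul, map_inv, map_hs, InvSeries.map_smul, Law.map_map, ← h,
    ← map_po, ← map_add]
  congr 3
  funext k
  simp only [sg, apply_ite φ, map_zero]

theorem rt_translate (ht : T1 t) (x : N →+* B) (e : B) {a a' : strict B} (g : strict B)
    (h : (a' : InvSeries B) = a * (g : InvSeries B)⁻¹) :
    (rt t hR (act (g : InvSeries B) x) (e + po t x g) a' : InvSeries B) =
      rt t hR x e a * (g : InvSeries B)⁻¹ := by
  have h1 : (ty hR (act (g : InvSeries B) x) a' : InvSeries B) = ty hR x a * (g : InvSeries B)⁻¹ :=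
    uS_translate hR x (fun _ => a) (fun _ => a') _ 0 h
  rw [val_rt, val_rt, po_translate ht.d x g h1, h1, law_act, smul_smul, inv_mul_cancel_right,
    mul_assoc]
  congr 4
  ring

theorem rt_scale (ht : T1 t) (x : N →+* B) (e : B) (a : strict B) (u : Bˣ) :
    rt t hR (act (InvSeries.lin u)⁻¹ x) ((u : B) ^ 2 * e) (cj u a) = cj u (rt t hR x e a) := by
  have h1 : ty hR (act (InvSeries.lin u)⁻¹ x) (cj u a) = cj u (ty hR x a) :=
    congrFun (uS_conj hR x (fun _ => a) u) 0
  have h2 : ∀ g : strict B, (cj u g : InvSeries B) =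
      (InvSeries.lin u)⁻¹ * g * InvSeries.lin u := fun _ => rfl
  have h3 : ∀ y : B, sg ((u : B) ^ 2 * y) = fun k => (u : B) ^ (3 ^ (k + 1) - 1) * sg y k :=
    fun y => funext fun k => by
      unfold sg
      split_ifs with hk
      · subst hk
        rfl
      · rw [mul_zero]
  apply Subtype.ext
  rw [val_rt, h1, po_scale ht.wt, ← mul_add, h3, h2, h2, law_act, smul_smul,
    mul_inv_cancel_right, mul_smul, hs_conj, val_rt]
  group

theorem c_rt (ht : T1 t) (x : N →+* B) (e : B) (a b : strict B) {k : ℕ} (hk : k + 1 < 8) :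
    ((rt t hR x e a * (rt t hR x e b)⁻¹ : strict B) : InvSeries B).c (k + 1) = 0 := by
  obtain ⟨v, hv⟩ := rt_hz hR (t := t) x e a
  obtain ⟨v', hv'⟩ := rt_hz hR (t := t) x e b
  obtain ⟨r, hr⟩ := exists_hs_of_ploc 3 (hR.ploc x) (rt t hR x e a * (rt t hR x e b)⁻¹).2
    (v := v) (w := v') (by
      rw [← hv, ← hv', smul_smul, Subgroup.coe_mul, Subgroup.coe_inv, mul_inv_rev, inv_inv,
        inv_mul_cancel_right])
  have h0 := ht.val B x _ _ v r hv hr
  rw [A1_eq ht.d, eq_neg_of_add_eq_zero_left (po_rt hR ht x e a),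
    eq_neg_of_add_eq_zero_left (po_rt hR ht x e b), sub_self] at h0
  have h1 := mem_ordI_unit.1 (hV_sub 3 (hz 3 v) r 1) (k + 2) (by omega)
  rw [gS, gS, ← h0, mono, map_zero, zero_mul, subst_pair_zero _ psX_mem, map_sub,
    PowerSeries.coeff_X, if_neg (by omega), sub_zero] at h1
  rw [hr]
  exact h1

/-! ### the homotopy -/

variable (t) in
/-- the prism operator -/
def hP (n : ℕ) (P : (Cob N (n + 1))[X]) : (Cob N n)[X] :=
  ∑ i ∈ Finset.range (n + 1), ((-1 : ℤ) ^ i) • EV t (n + 1) (xU N n)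
    (prs i (VU N n) (rt t hR (xU N n) (eU t n) ∘ VU N n)) (eU t n) P

theorem EV_hP (ht : T1 t) (P : (Cob N (n + 1))[X]) (x : N →+* B) (V : ℕ → strict B) (e : B) :
    EV t n x V e (hP t hR n P) = ∑ i ∈ Finset.range (n + 1),
      ((-1 : ℤ) ^ i) • EV t (n + 1) x (prs i V (rt t hR x e ∘ V)) e P := by
  rw [hP, map_sum]
  refine Finset.sum_congr rfl fun i hi => ?_
  rw [map_zsmul, EV_EV ht.d]
  intro k hk
  have := Finset.mem_range.1 hi
  simp only [prs]
  split_ifs
  · exact EV_VU t (by omega) x V e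
  · rw [Function.comp_apply, smap_rt, EV_xU, EV_eU ht.d]
    exact rt_translate hR ht x e _ (EV_VU t (by omega) x V e)

theorem WP.prism (ht : T1 t) {W : ℤ} {P : (Cob N (n + 1))[X]} (h : WP W P) :
    WP W (hP t hR n P) := by
  refine WP.of_scale ht.wt fun B _ x V e u => ?_
  have h1 : rt t hR (act (InvSeries.lin u)⁻¹ x) ((u : B) ^ 2 * e) ∘ conjSeq u V =
      conjSeq u (rt t hR x e ∘ V) := by
    have h2 : ∀ (G : ℕ → strict B) k, conjSeq u G k = cj u (G k) := fun _ _ => rfl
    funext k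
    rw [Function.comp_apply, h2, h2, rt_scale hR ht, Function.comp_apply]
  rw [EV_hP hR ht, EV_hP hR ht, Finset.mul_sum, h1]
  refine Finset.sum_congr rfl fun i _ => ?_
  rw [← conjSeq_prs, h.scale ht.wt, mul_smul_comm]

include hR in
/-- **the vanishing line for `T(1)`** -/
theorem van_T (hN : NoNeg N) (ht : T1 t) {W : ℤ} {P : (Cob N (n + 1))[X]} (hw : WP W P)
    (hd : DP t (n + 1) P = 0) (h : W < 8 * (n + 1)) :
    ∃ Q : (Cob N n)[X], WP W Q ∧ P = DP t n Q := by
  obtain ⟨Q, hQ, h1⟩ := exists_NP ht hw hd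
  have h2 := hw.sub (hQ.DP ht.d ht.wt)
  have h3 : DP t (n + 1) (P - DP t n Q) = 0 := by rw [map_sub, hd, DP_DP ht.d, sub_zero]
  refine ⟨Q - hP t hR n (P - DP t n Q), hQ.sub (h2.prism hR ht), ?_⟩
  rw [map_sub, eq_sub_iff_add_eq, add_comm P, ← eq_sub_iff_add_eq, ← neg_sub P]
  generalize P - DP t n Q = R at h1 h2 h3
  refine ext_EV t fun B _ x V e => ?_
  have h4 := prism_identity V (rt t hR x e ∘ V) (fun G => EV t (n + 1) x G e R) (n + 1)
  have h5 : EV t (n + 1) x (rt t hR x e ∘ V) e R = 0 := by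
    rw [EV_zero x (rt t hR x e ∘ V) (po_rt hR ht x e (V (n + 1))), evSeq_eq_prodSeq]
    exact evSeq_eq_zero_of_small hN (h2 0) h1.coeff (q := 8) (by push_cast; omega) _
      fun k _ m hm => c_rt hR ht x e (V (k + 1)) (V k) hm
  have h6 : ∀ i, ∑ j ∈ Finset.range (n + 1 + 2), ((-1 : ℤ) ^ (i + j)) •
      EV t (n + 1) x (del j (prs i V (rt t hR x e ∘ V))) e R = 0 := fun i => by
    have h7 := EV_DP ht.d x (prs i V (rt t hR x e ∘ V)) e R
    rw [h3, map_zero, altD] at h7
    simp only [pow_add, mul_smul, ← Finset.smul_sum]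
    rw [← h7, smul_zero]
  simp only [h5, h6, Finset.sum_const_zero, zero_add, zero_sub] at h4
  rw [EV_congr t x (V := mix (n + 1 + 1) V _) (V' := V) fun k hk => if_pos (by omega)] at h4
  rw [map_neg, ← h4, EV_DP ht.d, altD, Finset.sum_comm]
  refine Finset.sum_congr rfl fun j _ => ?_
  rw [EV_hP hR ht, Finset.smul_sum]
  refine Finset.sum_congr rfl fun i _ => ?_
  rw [smul_smul, ← pow_add, add_comm j, del_eq, del_eq]
  rfl

end Vale.Agent.P236VL

end
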